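import Vale.Agent.P290.Bdl.B1
import Vale.Agent.P030.H580.Pompeiu

/-! P290Z, PER0: integrals of holomorphic families, a Pompeiu formula, the periodic kernel. -/

open Set Filter Metric MeasureTheory Complex
open scoped Topology Real

noncomputable section

namespace Vale.Agent.P290Z.Per0

open Vale.Agent.P030.H580

section hi

variable {α : Type} [MeasurableSpace α] {μ : Measure α} {E : Type} [NormedAddCommGroup E]
  [NormedSpace ℂ E]

theorem differentiableAt_integral_line {F : ℂ → α → E} {ρ : ℝ} (hρ : 0 < ρ) {bound : α → ℝ}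
    (hm : ∀ ζ ∈ ball (0 : ℂ) ρ, AEStronglyMeasurable (F ζ) μ)
    (hd : ∀ᵐ a ∂μ, DifferentiableOn ℂ (fun ζ => F ζ a) (ball 0 ρ))
    (hb : ∀ᵐ a ∂μ, ∀ ζ ∈ ball (0 : ℂ) ρ, ‖F ζ a‖ ≤ bound a) (hi : Integrable bound μ) :
    DifferentiableAt ℂ (fun ζ => ∫ a, F ζ a ∂μ) 0 := by
  have h0 : (0 : ℂ) ∈ ball (0 : ℂ) ρ := mem_ball_self hρ
  have hsub : ∀ x ∈ ball (0 : ℂ) (ρ / 2), closedBall x (ρ / 2) ⊆ ball 0 ρ := fun x hx =>
    closedBall_subset_ball' (by rw [mem_ball] at hx; linarith)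
  refine (hasDerivAt_integral_of_dominated_loc_of_deriv_le (𝕜 := ℂ) (μ := μ) (F := F)
    (F' := fun ζ a => deriv (fun ζ => F ζ a) ζ) (bound := fun a => bound a / (ρ / 2))
    (ball_mem_nhds 0 (half_pos hρ)) ?_ ?_ ?_ ?_ (hi.div_const _) ?_).2.differentiableAt
  · filter_upwards [ball_mem_nhds (0 : ℂ) hρ] with ζ hζ using hm ζ hζ
  · exact hi.mono' (hm 0 h0) (hb.mono fun a ha => ha 0 h0)
  · classical
    refine aestronglyMeasurable_of_tendsto_ae (𝓝[≠] (0 : ℂ))
      (f := fun ζ a => if ζ ∈ ball (0 : ℂ) ρ then ζ⁻¹ • (F ζ a - F 0 a) else 0) (fun ζ => ?_) ?_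
    · split_ifs with h
      · exact ((hm ζ h).sub (hm 0 h0)).const_smul _
      · exact aestronglyMeasurable_const
    · filter_upwards [hd] with a ha
      have h1 := (ha.differentiableAt (ball_mem_nhds 0 hρ)).hasDerivAt.tendsto_slope_zero
      refine h1.congr' ?_
      filter_upwards [mem_nhdsWithin_of_mem_nhds (ball_mem_nhds (0 : ℂ) hρ)] with ζ hζ
      rw [if_pos hζ, zero_add]
  · filter_upwards [hd, hb] with a ha hb' x hx
    refine norm_deriv_le_of_forall_mem_sphere_norm_le (half_pos hρ)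
      (ha.diffContOnCl_ball (hsub x hx)) fun z hz => hb' z (hsub x hx (sphere_subset_closedBall hz))
  · filter_upwards [hd] with a ha x hx
    exact (ha.differentiableAt (isOpen_ball.mem_nhds
      (hsub x hx (mem_closedBall_self (half_pos hρ).le)))).hasDerivAt

/-- the integral of a dominated holomorphic family is holomorphic -/
theorem differentiableOn_integral {V : Type} [NormedAddCommGroup V] [NormedSpace ℂ V] {U : Set V}
    (hU : IsOpen U) {F : V → α → E} {bound : α → ℝ} (hm : ∀ y ∈ U, AEStronglyMeasurable (F y) μ)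
    (hd : ∀ᵐ a ∂μ, DifferentiableOn ℂ (fun y => F y a) U)
    (hb : ∀ᵐ a ∂μ, ∀ y ∈ U, ‖F y a‖ ≤ bound a) (hi : Integrable bound μ) :
    DifferentiableOn ℂ (fun y => ∫ a, F y a ∂μ) U := by
  refine P290.differentiableOn_of_continuousOn_of_line hU (continuousOn_of_dominated hm
    (fun y hy => hb.mono fun a ha => ha y hy) hi (hd.mono fun a ha => ha.continuousOn))
    fun z hz h => ?_
  have hc : Continuous fun ζ : ℂ => z + ζ • h := by fun_prop
  obtain ⟨ρ, hρ, hs⟩ := Metric.isOpen_iff.1 (hU.preimage hc) 0 (by simpa using hz)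
  refine differentiableAt_integral_line (F := fun ζ => F (z + ζ • h)) hρ
    (fun ζ hζ => hm _ (hs hζ)) (hd.mono fun a ha => ?_) (hb.mono fun a ha ζ hζ => ha _ (hs hζ)) hi
  exact ha.comp (f := fun ζ : ℂ => z + ζ • h) (by fun_prop) hs

end hi

section pomp

variable {E : Type} [NormedAddCommGroup E] [NormedSpace ℂ E]

theorem dbar_congr {f g : ℂ → E} {z : ℂ} (h : f =ᶠ[𝓝 z] g) : dbar f =ᶠ[𝓝 z] dbar g := by
  filter_upwards [h.fderiv (𝕜 := ℝ)] with w hw
  rw [dbar, dbar, hw]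

theorem dbar_const (c : E) : dbar (fun _ => c) = 0 := by
  ext z
  simp [dbar]

theorem dbar_of_const {f : ℂ → E} {z : ℂ} {c : E} (h : f =ᶠ[𝓝 z] fun _ => c) :
    dbar f =ᶠ[𝓝 z] 0 := by
  have h1 := dbar_congr h
  rwa [dbar_const] at h1

theorem dbar_one_sub {f : ℂ → ℂ} (z : ℂ) : dbar (fun w => 1 - f w) z = -dbar f z := by
  simp only [dbar, fderiv_const_sub, neg_apply, smul_eq_mul]
  ring

theorem continuous_dbar {f : ℂ → E} (h : ContDiff ℝ 1 f) : Continuous (dbar f) := by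
  have h1 := h.continuous_fderiv one_ne_zero
  unfold dbar
  fun_prop

theorem dbar_smul {θ : ℂ → ℂ} {G : ℂ → E} {z : ℂ} (hθ : DifferentiableAt ℝ θ z)
    (hG : DifferentiableAt ℂ G z) : dbar (fun w => θ w • G w) z = dbar θ z • G z := by
  have h1 := (hθ.hasFDerivAt.smul (hG.hasFDerivAt.restrictScalars ℝ)).fderiv
  have h2 : fderiv ℂ G z I = I • fderiv ℂ G z 1 := by rw [← map_smul, smul_eq_mul, mul_one]
  rw [dbar, dbar]
  erw [h1]
  simp only [add_apply, smul_apply,
    ContinuousLinearMap.coe_restrictScalars', ContinuousLinearMap.smulRight_apply, h2, smul_add,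
    smul_smul, smul_eq_mul]
  have h3 : (1 / 2 : ℂ) * (I * (θ z * I)) = -(1 / 2 * θ z) := by
    linear_combination (1 / 2 * θ z) * I_mul_I
  rw [h3, neg_smul, mul_add, add_smul]
  abel

/-- the Pompeiu formula for the product of a cut-off function and a holomorphic function -/
theorem pompeiu_smul [CompleteSpace E] {θ : ℂ → ℂ} (hθ : ContDiff ℝ 1 θ)
    (hs : HasCompactSupport θ) {G : ℂ → E} {U : Set ℂ} (hU : IsOpen U) (hsU : tsupport θ ⊆ U)
    (hG : DifferentiableOn ℂ G U) (a : ℂ) :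
    θ a • G a = ∫ ξ : ℂ, (ξ - a)⁻¹ • (-(π : ℂ)⁻¹ • dbar θ ξ • G ξ) := by
  have hz : ∀ w ∉ tsupport θ, (fun w => θ w • G w) =ᶠ[𝓝 w] fun _ => 0 := fun w hw => by
    filter_upwards [notMem_tsupport_iff_eventuallyEq.1 hw] with x hx
    rw [hx, Pi.zero_apply, zero_smul]
  have h1 : ContDiff ℝ 1 fun w => θ w • G w := contDiff_iff_contDiffAt.2 fun w => by
    by_cases hw : w ∈ tsupport θ
    · exact hθ.contDiffAt.smul
        ((hG.analyticAt (hU.mem_nhds (hsU hw))).contDiffAt.restrict_scalars ℝ)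
    · exact contDiffAt_const.congr_of_eventuallyEq (hz w hw)
  have h2 : ∀ w, dbar (fun w => θ w • G w) w = dbar θ w • G w := fun w => by
    by_cases hw : w ∈ tsupport θ
    · exact dbar_smul (hθ.differentiable one_ne_zero w) (hG.differentiableAt (hU.mem_nhds (hsU hw)))
    · rw [(dbar_of_const (hz w hw)).eq_of_nhds,
        (dbar_of_const (notMem_tsupport_iff_eventuallyEq.1 hw)).eq_of_nhds, Pi.zero_apply,
        Pi.zero_apply, zero_smul]
  have h3 : HasCompactSupport fun w => θ w • G w := hs.smul_right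
  have h4 : HasCompactSupport (dbar fun w => θ w • G w) :=
    HasCompactSupport.intro hs fun w hw => (dbar_of_const (hz w hw)).eq_of_nhds
  have h5 := pompeiu _ h1 0 h3.is_zero_at_infty h4 a
  rw [h5, zero_add]
  simp only [h2]

end pomp

/-! the periodic kernel -/

/-- `exp (2 π i ζ) - 1` -/
def e0 (ζ : ℂ) : ℂ := exp (2 * π * I * ζ) - 1

/-- the periodic Cauchy kernel -/
def KK (ζ : ℂ) : ℂ := 2 * π * I / e0 ζ

/-- `ζ K ζ` -/
def ka (ζ : ℂ) : ℂ := 2 * π * I / dslope e0 0 ζ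

theorem e0_diff : Differentiable ℂ e0 := by
  unfold e0
  fun_prop

theorem e0_zero {ζ : ℂ} (h : e0 ζ = 0) : ∃ n : ℤ, ζ = n := by
  obtain ⟨n, hn⟩ := exp_eq_one_iff.1 (sub_eq_zero.1 h)
  exact ⟨n, mul_left_cancel₀ two_pi_I_ne_zero (by rw [hn]; ring)⟩

theorem e0_add_int (ζ : ℂ) (n : ℤ) : e0 (ζ + n) = e0 ζ := by
  rw [e0, e0, mul_add, exp_add, mul_comm _ (n : ℂ), exp_int_mul_two_pi_mul_I, mul_one]

theorem KK_add_int (ζ : ℂ) (n : ℤ) : KK (ζ + n) = KK ζ := by rw [KK, e0_add_int, KK]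

theorem measurable_KK : Measurable KK :=
  measurable_const.div e0_diff.continuous.measurable

theorem KK_diff {ζ : ℂ} (h : e0 ζ ≠ 0) : DifferentiableAt ℂ KK ζ :=
  (differentiableAt_const _).div (e0_diff ζ) h

theorem dslope_e0_zero : dslope e0 0 0 = 2 * π * I := by
  have h : HasDerivAt e0 (exp (2 * π * I * 0) * (2 * π * I * 1)) 0 :=
    ((hasDerivAt_id (0 : ℂ)).const_mul _).cexp.sub_const 1
  rw [dslope_same, h.deriv]
  simp

theorem dslope_e0_ne {ζ : ℂ} (h : ζ ≠ 0) : dslope e0 0 ζ = e0 ζ / ζ := by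
  rw [dslope_of_ne _ h, slope_def_field]
  simp [e0]

theorem ka_zero : ka 0 = 1 := by rw [ka, dslope_e0_zero, div_self two_pi_I_ne_zero]

theorem KK_eq (ζ : ℂ) : KK ζ = ζ⁻¹ * ka ζ := by
  by_cases h : ζ = 0
  · simp [h, KK, e0]
  · rw [ka, dslope_e0_ne h, KK, div_div_eq_mul_div]
    field_simp

theorem ka_diff : DifferentiableOn ℂ ka (ball 0 1) := by
  refine (differentiableOn_const _).div ((differentiableOn_dslope (ball_mem_nhds 0 one_pos)).2
    e0_diff.differentiableOn) fun ζ hζ => ?_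
  by_cases h : ζ = 0
  · rw [h, dslope_e0_zero]
    exact two_pi_I_ne_zero
  · rw [dslope_e0_ne h]
    refine div_ne_zero (fun h0 => h ?_) h
    obtain ⟨n, rfl⟩ := e0_zero h0
    rw [mem_ball_zero_iff, norm_intCast] at hζ
    have : n = 0 := Int.abs_lt_one_iff.1 (by exact_mod_cast hζ)
    simp [this]

theorem KK_integrableOn_ball : IntegrableOn KK (ball 0 (1 / 2)) := by
  obtain ⟨B, hB⟩ := (isCompact_closedBall (0 : ℂ) (1 / 2)).exists_bound_of_continuousOn
    (ka_diff.continuousOn.mono (closedBall_subset_ball (by norm_num)))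
  refine integrableOn_ball_of_norm_le_rpow (C := B) (α := 1) (by simp) (by simp) ?_
    measurable_KK.aestronglyMeasurable
  refine (ae_restrict_iff' measurableSet_ball).2 (Eventually.of_forall fun ζ hζ => ?_)
  rw [KK_eq, norm_mul, norm_inv, Real.rpow_neg_one, mul_comm]
  exact mul_le_mul_of_nonneg_right (hB ζ (ball_subset_closedBall hζ)) (by positivity)

theorem KK_locallyIntegrable : LocallyIntegrable KK := by
  intro x
  by_cases h : e0 x = 0
  · obtain ⟨n, rfl⟩ := e0_zero h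
    refine ⟨ball n (1 / 2), ball_mem_nhds _ (by norm_num), ?_⟩
    have h1 := ((measurePreserving_add_right volume (-n : ℂ)).integrableOn_comp_preimage
      (Homeomorph.addRight (-n : ℂ)).measurableEmbedding).2 KK_integrableOn_ball
    have e1 : (fun x : ℂ => x + -n) ⁻¹' ball 0 (1 / 2) = ball (n : ℂ) (1 / 2) := by
      ext x
      simp [dist_eq_norm, sub_eq_add_neg]
    have e2 : KK ∘ (fun x : ℂ => x + -n) = KK := by
      ext x
      simpa using KK_add_int x (-n)
    rwa [e1, e2] at h1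
  · have hU : IsOpen {ζ | e0 ζ ≠ 0} := isOpen_ne_fun e0_diff.continuous continuous_const
    have hc : ContinuousOn KK {ζ | e0 ζ ≠ 0} := fun ζ hζ =>
      (KK_diff hζ).continuousAt.continuousWithinAt
    have h1 := hc.locallyIntegrableOn (μ := volume) hU.measurableSet x h
    rwa [hU.nhdsWithin_eq h] at h1

end Vale.Agent.P290Z.Per0
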